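import Crest.Agent.X262.Gwb59.Defs
import Crest.Agent.X262.End36.Emb

/-!
# Row 262, road B, EMB adapter (helper5): one more factor, class level

* `opt m t` : the embedding `m` with one more factor `t`;
* `Step V`  : the invariants of `m` are the sums of the invariants of `opt m t`.
-/

set_option autoImplicit false

noncomputable section

namespace Crest.Agent.X262.Emb5

open Crest.Agent.X277 Crest.Agent.X277.BD
open Crest.Agent.X262.Coh Crest.Agent.X262.Gwb

variable {Y : SV}

/-- one more factor -/
def opt (m : Emb Y) (t : Tup Y.F) (ht : t.Reg Y) (hn : Nontrivial t.io) : Emb Y where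
  J := Option m.J
  T j := j.elim t m.T
  reg j := by cases j; exacts [ht, m.reg _]
  emb := End36.IsE.mono m.emb some fun _ => rfl
  nt j := by cases j; exacts [hn, m.nt _]
  cod := End36.rs_cod (μ := idH Y) (T' := fun j : Option m.J => j.elim t m.T)
    (Option.some_injective _) (fun _ => End36.rs_id _) m.cod

/-- the invariants of `m` are the sums of the invariants of `opt m t` -/
def Step {C : Coh.Th} {B : Hb.Th} (V : Vir C B) : Prop :=
  ∀ (Y : SV) (m : Emb Y) (t : Tup Y.F) (ht : t.Reg Y) (hn : Nontrivial t.io) (d : m.J → ℕ),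
    ∃ N₀ : ℕ, ∀ l : Multiset (C.H Y),
      (∀ n, N₀ < n → (V.num (opt m t ht hn)).gw (fun j : Option m.J => j.elim n d) l = 0) ∧
      (V.num m).gw d l =
        ∑ n ∈ Finset.range (N₀ + 1), (V.num (opt m t ht hn)).gw (fun j : Option m.J => j.elim n d) l

end Crest.Agent.X262.Emb5
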