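import Crest.Agent.X262.Emb5.Main
import Crest.Agent.X262.EmbA.Main
import Crest.Agent.X262.End66.Eqi

/-!
# Row 262, road B, EMB adapter (helper5): `Gw.EMB` from `Emb.EmbStmt`
-/

set_option autoImplicit false

namespace Crest.Agent.X262.Emb5

open Crest.Agent.X262.Gwb

/-- **more factors refine the grading** -/
theorem emb_of {C : Coh.Th} {B : Hb.Th} (V : Vir C B) (hE : Emb.EmbStmt) : V.gw.EMB :=
  EmbA.emb_of_step V (step_of V hE) End66.eqiStmt

end Crest.Agent.X262.Emb5
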