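import Crest.Agent.X262.Hb64.Dict
import Crest.Agent.X262.Emb5.Defs

/-!
# Row 262, road B, EMB adapter (helper5): local formulas for a morphism

* `Fr w z f`    : `f = P / Q` with multihomogeneous `P`, `Q` and `Q z ≠ 0`;
* `fr_of_mem`   : every function which is regular at a point of the closure of `w` is such;
* `Fml m t q κ` : `q` is a formula for the tuple `t`;  `exists_fml`, `exists_fin_fml`;
* `mh_aeval`    : substitution of multihomogeneous polynomials.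
-/

set_option autoImplicit false

noncomputable section

namespace Crest.Agent.X262.Emb5

open Crest.Agent.X277 Crest.Agent.X277.Lef Crest.Agent.X277.AN.G1 Crest.Agent.X277.BD
  Crest.Agent.X277.BD.Br Crest.Agent.X262.Coh MvPolynomial
open Crest.Agent.X262.Gwb Crest.Agent.X262.Vb
open Crest.Agent.X262.Hb64 (IsPt KP exists_isPt)

theorem wh_aeval {σ τ M N : Type} [AddCommMonoid M] [AddCommMonoid N] {w : σ → M} {w' : τ → N}
    (ψ : M →+ N) {f : σ → MvPolynomial τ ℂ} (hf : ∀ i, (f i).IsWeightedHomogeneous w' (ψ (w i)))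
    {G : MvPolynomial σ ℂ} {κ : M} (h : G.IsWeightedHomogeneous w κ) :
    (aeval f G).IsWeightedHomogeneous w' (ψ κ) := by
  induction h using IsWeightedHomogeneous.induction_on with
  | zero => rw [map_zero]; exact isWeightedHomogeneous_zero _ _ _
  | add p q _ _ hp hq => rw [map_add]; exact hp.add hq
  | monomial d r hr =>
    rw [aeval_monomial, ← hr, Finsupp.weight_apply, Finsupp.sum, map_sum]
    refine IsWeightedHomogeneous.C_mul (IsWeightedHomogeneous.prod _ _ _ fun i _ => ?_) r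
    rw [map_nsmul]
    exact (hf i).pow _

variable {Y : SV} {m : Pre Y} {K : Type} [Field K] [Algebra ℂ K]

/-- `f` is the quotient `P / Q`, also at the point `w` with coordinates `z` -/
def FrD (w : KP Y K) (z : Pnt m.io K) (Q : MvPolynomial (Vr m.io) ℂ) (κ : m.J → ℕ) (f : Y.F) :
    Prop :=
  ∃ P, MH P κ ∧ f * pv m.y Q = pv m.y P ∧ w.p.π f * pv z Q = pv z P

/-- `f` is a quotient of multihomogeneous polynomials -/
def Fr (w : KP Y K) (z : Pnt m.io K) (f : Y.F) : Prop :=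
  f ∈ w.p.O ∧ ∃ Q κ, MH Q κ ∧ pv z Q ≠ 0 ∧ FrD w z Q κ f

variable {w : KP Y K} {z : Pnt m.io K}

theorem FrD.mul {Q Q' : MvPolynomial (Vr m.io) ℂ} {κ κ' : m.J → ℕ} {f : Y.F} (h : FrD w z Q κ f)
    (h' : MH Q' κ') : FrD w z (Q * Q') (κ + κ') f := by
  obtain ⟨P, h1, h2, h3⟩ := h
  refine ⟨P * Q', h1.mul h', ?_, ?_⟩
  · simp only [pv, map_mul] at h2 ⊢
    rw [← h2, mul_assoc]
  · simp only [pv, map_mul] at h3 ⊢
    rw [← h3, mul_assoc]

/-- common denominators -/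
theorem exists_den {ι : Type} [Fintype ι] {f : ι → Y.F} (h : ∀ a, Fr w z (f a)) :
    ∃ Q κ, MH Q κ ∧ pv z Q ≠ 0 ∧ ∀ a, FrD w z Q κ (f a) := by
  classical
  choose Q κ h1 h2 h3 using fun a => (h a).2
  refine ⟨∏ a, Q a, ∑ a, κ a, IsWeightedHomogeneous.prod _ _ _ fun a _ => h1 a, ?_, fun a => ?_⟩
  · rw [pv, map_prod]
    exact Finset.prod_ne_zero_iff.2 fun a _ => h2 a
  · rw [← Finset.mul_prod_erase _ _ (Finset.mem_univ a),
      ← Finset.add_sum_erase _ _ (Finset.mem_univ a)]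
    exact (h3 a).mul (IsWeightedHomogeneous.prod _ _ _ fun a _ => h1 a)

theorem fr_adj (h : IsPt m w z) (hz : NZ z) {x : Y.Pt} (hx : (lp x).O ≤ w.p.O) {f : Y.F}
    (hf : f ∈ Algebra.adjoin ℂ (crdAt m.T x)) : Fr w z f := by
  induction hf using Algebra.adjoin_induction with
  | mem a ha =>
    obtain ⟨j, i, i', h1, rfl⟩ := ha
    have h2 := h.ne_of_at hz hx h1
    refine ⟨(h j i i' h2).1, X ⟨j, i'⟩, _, isWeightedHomogeneous_X ℂ _ _, by simpa [pv] using h2,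
      X ⟨j, i⟩, isWeightedHomogeneous_X ℂ _ (⟨j, i⟩ : Vr m.io), ?_, ?_⟩
    · simp only [pv, aeval_X]
      exact div_mul_cancel₀ _ h1.ne
    · simp only [pv, aeval_X]
      exact (congrArg (· * _) (h j i i' h2).2).trans (div_mul_cancel₀ _ h2)
  | algebraMap c =>
    exact ⟨algebraMap_mem _ c, 1, 0, isWeightedHomogeneous_one ℂ _, by simp [pv], C c,
      isWeightedHomogeneous_C _ _, by simp [pv], by simp [pv, Plc.π_alg]⟩
  | add a b _ _ ha hb =>
    obtain ⟨Q, κ, h1, h2, h3⟩ := exists_den (f := ![a, b]) (Fin.forall_fin_two.2 ⟨ha, hb⟩)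
    obtain ⟨P, h4, h5, h6⟩ := h3 0
    obtain ⟨P', h4', h5', h6'⟩ := h3 1
    refine ⟨add_mem ha.1 hb.1, Q, κ, h1, h2, P + P', h4.add h4', ?_, ?_⟩
    · exact (add_mul _ _ _).trans ((congrArg₂ (· + ·) h5 h5').trans (map_add _ _ _).symm)
    · rw [w.p.π_add ha.1 hb.1]
      exact (add_mul _ _ _).trans ((congrArg₂ (· + ·) h6 h6').trans (map_add _ _ _).symm)
  | mul a b _ _ ha hb =>
    obtain ⟨ha, Q, κ, h1, h2, P, h4, h5, h6⟩ := ha
    obtain ⟨hb, Q', κ', h1', h2', P', h4', h5', h6'⟩ := hb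
    refine ⟨mul_mem ha hb, Q * Q', κ + κ', h1.mul h1', ?_, P * P', h4.mul h4', ?_, ?_⟩
    · rw [pv, map_mul]
      exact mul_ne_zero h2 h2'
    · simp only [pv, map_mul] at h5 h5' ⊢
      rw [← h5, ← h5', mul_mul_mul_comm]
    · simp only [pv, map_mul] at h6 h6' ⊢
      rw [w.p.π_mul ha hb, ← h6, ← h6', mul_mul_mul_comm]

/-- **regular functions are quotients of multihomogeneous polynomials** -/
theorem fr_of_mem (h : IsPt m w z) (hz : NZ z) {x : Y.Pt} (hx : (lp x).O ≤ w.p.O) {f : Y.F}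
    (hf : f ∈ (lp x).O) : Fr w z f := by
  obtain ⟨a, ha, c, hc, h3, rfl⟩ := m.emb x f hf
  have h5 : w.p.π c ≠ 0 := Strat.Fac.π_ne hx (Res.Log.un_iff.2 h3)
  have ha := fr_adj h hz hx ha
  have hc := fr_adj h hz hx hc
  obtain ⟨Q, κ, -, h2, h4⟩ := exists_den (f := ![f * c, c]) (Fin.forall_fin_two.2 ⟨ha, hc⟩)
  obtain ⟨P, h6, h7, h8⟩ := h4 0
  obtain ⟨P', h6', h7', h8'⟩ := h4 1
  refine ⟨hx hf, P', κ, h6', h8' ▸ mul_ne_zero h5 h2, P, h6, ?_, ?_⟩
  · rw [← h7, ← h7']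
    exact (mul_assoc _ _ _).symm
  · rw [← h8, ← h8', ← mul_assoc]
    exact congrArg (· * _) (w.p.π_mul (hx hf) hc.1).symm

/-- `q` is a formula of multidegree `κ` for the tuple `t` -/
def Fml (m : Pre Y) (t : Tup Y.F) (q : t.io → MvPolynomial (Vr m.io) ℂ) (κ : m.J → ℕ) : Prop :=
  (∀ a, MH (q a) κ) ∧ ∃ c, ∀ a, pv m.y (q a) = c * t.y a

/-- a formula near a given point -/
theorem exists_fml {t : Tup Y.F} (ht : t.Reg Y) (hz : NZ z) (h : m.On z) :
    ∃ q κ, Fml m t q κ ∧ ∃ a, pv z (q a) ≠ 0 := by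
  obtain ⟨w, hw⟩ := exists_isPt (m := m) hz h
  obtain ⟨x, hx⟩ := w.pt
  obtain ⟨i, hi⟩ := End36.exists_at ht x
  obtain ⟨Q, κ, -, h2, h3⟩ := exists_den fun a => fr_of_mem hw hz hx (End36.div_mem_at hi a)
  choose P h4 h5 h6 using h3
  refine ⟨P, κ, ⟨h4, pv m.y Q / t.y i, fun a => ?_⟩, i, ?_⟩
  · rw [← h5]
    ring
  · rwa [← h6, div_self hi.ne, Plc.π_one, one_mul]

/-- **finitely many formulas cover the variety** -/
theorem exists_fin_fml (m : Pre Y) {t : Tup Y.F} (ht : t.Reg Y) :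
    ∃ (L : Type) (_ : Fintype L) (q : L → t.io → MvPolynomial (Vr m.io) ℂ) (κ : L → m.J → ℕ),
      (∀ l, Fml m t (q l) (κ l)) ∧ ∀ (K : Type) [Field K] [Algebra ℂ K] (z : Pnt m.io K), NZ z →
        m.On z → ∃ l a, pv z (q l a) ≠ 0 := by
  obtain ⟨s, hs, e⟩ := (Submodule.fg_span_iff_fg_span_finset_subset _).1
    (IsNoetherian.noetherian (Ideal.span {G | ∃ q κ a, Fml m t q κ ∧ G = q a}))
  choose q κ a h1 h2 using fun G : s => hs G.2
  refine ⟨s, inferInstance, q, κ, h1, fun K _ _ z hz h => ?_⟩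
  by_contra! h3
  obtain ⟨q₀, κ₀, h4, a₀, h5⟩ := exists_fml ht hz h
  have h6 : Ideal.span (s : Set (MvPolynomial (Vr m.io) ℂ)) ≤
      RingHom.ker (aeval fun v : Vr m.io => z v.1 v.2 : _ →ₐ[ℂ] K) :=
    Ideal.span_le.2 fun G hG => (congrArg (pv z) (h2 ⟨G, hG⟩)).trans (h3 _ _)
  exact h5 (h6 (e.le (Ideal.subset_span ⟨q₀, κ₀, a₀, h4, rfl⟩)))

end Crest.Agent.X262.Emb5
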