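import Crest.Agent.X262.Emb5.Graph
import Crest.Agent.X262.Emb11.Defs
import Crest.Agent.X262.Gwb59.Ax

/-!
# Row 262, road B, EMB adapter (helper5): the step

* `exists_gr` : the target of `opt m t` is the graph of `t` over the target of `m`;
* `step_of`   : `Emb.EmbStmt → Step V`.
-/

set_option autoImplicit false
set_option linter.unusedSectionVars false

noncomputable section

namespace Crest.Agent.X262.Emb5

open Crest.Agent.X277 Crest.Agent.X277.BD Crest.Agent.X262.Coh MvPolynomial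
open Crest.Agent.X262.Gwb Crest.Agent.X262.Vb Crest.Agent.X262.Qn
open Crest.Agent.X262.Emb (bs prP exP exd upq prF Gr cp' EmbStmt)

section Gen

variable {J : Type} [Fintype J] [DecidableEq J] {io : Option J → Type} [∀ j, Fintype (io j)]
  [∀ j, DecidableEq (io j)] {E : Type} [Field E] [Algebra ℂ E]

theorem pv_upq (y : Pnt io E) (q : MvPolynomial (Vr (bs io)) ℂ) : pv y (upq q) = pv (prP y) q :=
  aeval_rename _ _ _

theorem mh_upq {q : MvPolynomial (Vr (bs io)) ℂ} {κ : J → ℕ} (h : MH q κ) :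
    MH (upq q) (∑ k, κ k • Pi.single (some k) 1) :=
  mh_rename (io' := io) some (fun _ => id) h

/-- substitution of the formula `q` for the new variables -/
def sbs (q : io none → MvPolynomial (Vr (bs io)) ℂ) : Vr io → MvPolynomial (Vr (bs io)) ℂ
  | ⟨none, a⟩ => q a
  | ⟨some j, i⟩ => X ⟨j, i⟩

theorem pv_sbs (q : io none → MvPolynomial (Vr (bs io)) ℂ) (y : Pnt (bs io) E)
    (G : MvPolynomial (Vr io) ℂ) :
    pv y (aeval (sbs q) G) = pv (exP y fun a => pv y (q a)) G := by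
  refine (comp_aeval_apply _ _ G).trans (congrArg (fun f => aeval f G) (_root_.funext ?_))
  rintro ⟨_ | j, i⟩
  · rfl
  · exact aeval_X _ _

theorem mh_sbs {q : io none → MvPolynomial (Vr (bs io)) ℂ} {μ : J → ℕ} (hq : ∀ a, MH (q a) μ)
    {G : MvPolynomial (Vr io) ℂ} {κ : Option J → ℕ} (h : MH G κ) :
    ∃ κ', MH (aeval (sbs q) G) κ' := by
  let ψ : (Option J → ℕ) →ₗ[ℕ] (J → ℕ) :=
    Fintype.linearCombination ℕ fun j : Option J => j.elim μ fun j => Pi.single j 1
  refine ⟨_, wh_aeval ψ.toAddMonoidHom ?_ h⟩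
  rintro ⟨j, i⟩
  rw [LinearMap.toAddMonoidHom_coe, Fintype.linearCombination_apply_single, one_smul]
  cases j
  · exact hq i
  · exact isWeightedHomogeneous_X ℂ _ _

variable {A A' : Type} [Fintype A] [Fintype A'] {T : Tgt (bs io) A} {T' : Tgt io A'}

theorem on_prP (h : ∀ a, upq (T.F a) ∈ Ideal.span (Set.range T'.F)) {y : Pnt io E}
    (hy : T'.On y) : T.On (prP y) := fun a =>
  (pv_upq y _).symm.trans ((Ideal.span_le.2 (by rintro _ ⟨b, rfl⟩; exact hy b) :
    Ideal.span (Set.range T'.F) ≤ RingHom.ker (aeval fun v : Vr io => y v.1 v.2 : _ →ₐ[ℂ] E)) (h a))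

theorem mcls_prF {B : Hb.Th} (h : ∀ a, upq (T.F a) ∈ Ideal.span (Set.range T'.F)) {M : Type}
    {Φ : MFam B (bs io) M} (hΦ : MCls B T Φ) : MCls B T' (prF Φ) :=
  ⟨fun E _ _ _ y c h1 h2 h3 => hΦ.scl E (fun q => prP (y q)) (fun q j => c q (some j))
      (fun _ _ => h1 _ _) (fun q _ => h2 q _) fun q => on_prP h (h3 q),
    fun K E _ _ _ _ _ _ p y h1 h2 => hΦ.nat K E p (fun q => prP (y q)) (fun q _ => h1 q _)
      fun q => on_prP h (h2 q)⟩

end Gen

variable {Y : SV} (m : Gwb.Emb Y) (t : Tup Y.F) (ht : t.Reg Y) (hn : Nontrivial t.io)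

theorem idF (a : Fin m.exists_tgt.choose) :
    upq (io := (opt m t ht hn).io) (m.tgt.F a) ∈ Ideal.span (Set.range (opt m t ht hn).tgt.F) :=
  (opt m t ht hn).tgt_isEq.ge (Syz.mem_hI (mh_upq (io := (opt m t ht hn).io) (m.tgt.hom a))
    ((pv_upq (opt m t ht hn).y _).trans (Pre.on_iff.2 m.on_y a)))

/-- **the graph** -/
theorem exists_gr (d : m.J → ℕ) :
    Nonempty (Gr (io := (opt m t ht hn).io) m.tgt (opt m t ht hn).tgt d) := by
  obtain ⟨L, _, q, κ, h1, h2⟩ := exists_fin_fml m.toPre ht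
  refine ⟨⟨L, κ, q, fun l => (h1 l).1, fun E _ _ _ s h3 _ h4 x =>
    h2 E _ (nz_ev s h3 x) (Pre.on_iff.1 (h4 x)), fun E _ _ y l _ h4 _ => ?_, idF m t ht hn,
    fun l a b => ?_⟩⟩
  · refine (Pre.on_iff (m := (opt m t ht hn).toPre)).2 fun G κ' hG h0 => ?_
    obtain ⟨c, hc⟩ := (h1 l).2
    obtain ⟨κ₁, h5⟩ := mh_sbs (io := (opt m t ht hn).io) (h1 l).1 hG
    refine (pv_sbs (io := (opt m t ht hn).io) (q l) y G).symm.trans (Pre.on_iff.1 h4 _ κ₁ h5 ?_)
    refine (pv_sbs (io := (opt m t ht hn).io) (q l) m.y G).trans ?_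
    have h6 := Node22.pv_scl hG (fun j : Option m.J => j.elim c fun _ => 1) (opt m t ht hn).y
    rw [h0, mul_zero] at h6
    refine Eq.trans (congrArg (fun z => pv z G) (_root_.funext fun j => _root_.funext fun i => ?_)) h6
    cases j
    · exact hc i
    · exact (one_mul _).symm
  · obtain ⟨c, hc⟩ := (h1 l).2
    have h3 : ∀ a b, MH (X ⟨none, a⟩ * upq (io := (opt m t ht hn).io) (q l b)) _ := fun a b =>
      (isWeightedHomogeneous_X ℂ _ _).mul (mh_upq (io := (opt m t ht hn).io) ((h1 l).1 b))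
    have h4 : ∀ a b, pv (opt m t ht hn).y (X ⟨none, a⟩ * upq (io := (opt m t ht hn).io) (q l b)) =
        t.y a * (c * t.y b) := fun a b => (map_mul _ _ _).trans
      (congrArg₂ (· * ·) (aeval_X _ _) ((pv_upq (opt m t ht hn).y _).trans (hc b)))
    refine (opt m t ht hn).tgt_isEq.ge (Syz.mem_hI ((h3 a b).sub (h3 b a)) ?_)
    refine (map_sub _ _ _).trans ((congrArg₂ (· - ·) (h4 a b) (h4 b a)).trans ?_)
    ring

variable {C : Coh.Th} {B : Hb.Th} (V : Vir C B)
include V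

theorem cod_opt : (opt m t ht hn).toPre.cod = cp' (opt m t ht hn).io m.toPre.cod := by
  have h1 := (V.gen Y m.toPre).dm
  have h2 : adim (opt m t ht hn).io = (Fintype.card t.io - 1) + adim m.io := Fintype.sum_option _
  have h3 : cp' (opt m t ht hn).io m.toPre.cod = m.toPre.cod + (Fintype.card t.io - 1) := rfl
  rw [h3, Pre.cod, h2]
  change Y.dim + _ = _ at h1
  omega

theorem ev_opt (E : Type) [Field E] [Algebra ℂ E] [Algebra.EssFiniteType ℂ E]
    (z : Pnt (opt m t ht hn).io E) (h1 : NZ z) (h2 : (opt m t ht hn).On z) (a : C.H Y) :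
    V.I.ev (opt m t ht hn).toPre E z a = V.I.ev m.toPre E (prP (io := (opt m t ht hn).io) z) a := by
  let D : RsD (idH Y) m.toPre (opt m t ht hn).toPre some :=
    ⟨fun _ => Equiv.refl _, fun _ => 1, fun _ => 1, fun _ _ => Algebra.mem_top,
      fun _ _ => by simp [Cns.idM_p]; rfl⟩
  have h3 := V.hI.rs D E z h1 h2 a
  rwa [V.man.pb_id] at h3

theorem good_opt (d : m.J → ℕ) (n : ℕ) :
    Good (opt m t ht hn).tgt (cp' (opt m t ht hn).io m.toPre.cod) (exd d n) := by
  have h := V.good (opt m t ht hn) (exd d n)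
  rwa [cod_opt m t ht hn V] at h

theorem gw_opt (d : m.J → ℕ) (n : ℕ) {M : Type} [Fintype M] (a : M → C.H Y) :
    (V.num (opt m t ht hn)).gw (fun j : Option m.J => j.elim n d) (Finset.univ.val.map a) =
      GW B (opt m t ht hn).tgt (exd d n)
        (prF (io := (opt m t ht hn).io) (prd fun q => (V.I.e m.toPre).fam (a q))) := by
  have h1 : (fun j : Option m.J => j.elim n d) = exd d n :=
    _root_.funext fun j => by cases j <;> rfl
  have h2 := V.a0 (opt m t ht hn) (exd d n)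
  rw [h1]
  exact (Ev.gw_eq h2 a).trans (GW_congr h2 (Ev.mcls (V.evAx (opt m t ht hn)) a)
    (mcls_prF (idF m t ht hn) (Ev.mcls (V.evAx m) a)) fun E _ _ _ y h3 h4 =>
      Finset.prod_congr rfl fun q _ => ev_opt m t ht hn V E (y q) (h3 q) (Pre.on_iff.1 (h4 q)) (a q))

/-- **one more factor** -/
theorem step_of (hE : EmbStmt) : Step V := by
  intro Y m t ht hn d
  obtain ⟨G⟩ := exists_gr m t ht hn d
  have h0 := hE B V.hB (io := (opt m t ht hn).io) m.tgt (opt m t ht hn).tgt m.toPre.cod d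
    (opt m t ht hn).nt (V.good m d) (good_opt m t ht hn V d) G
  obtain ⟨N, hN⟩ := h0
  refine ⟨N, fun l => ?_⟩
  obtain ⟨M, _, _, a, rfl, -⟩ := Ev.exists_idx l
  have h1 : MCls B m.tgt (prd fun q => (V.I.e m.toPre).fam (a q)) := Ev.mcls (V.evAx m) a
  have h2 := hN (M := M) (prd fun q => (V.I.e m.toPre).fam (a q)) h1
  refine ⟨fun n h => (gw_opt m t ht hn V d n a).trans (h2.1 n h), ?_⟩
  rw [Finset.sum_congr rfl fun n _ => gw_opt m t ht hn V d n a]
  exact (Ev.gw_eq (V.a0 m d) a).trans h2.2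

end Crest.Agent.X262.Emb5
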